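import Crest.Agent.S0316Aux.A84_Defs

/-!
# S0316, TRACK A, task A3a (helper39): transformation of the (anti-)self-dual Plücker coordinates
under the two blocks of plane rotations.
-/

set_option autoImplicit false

open Crest.GeometryTopology.Quadric Crest.Agent.S0316Aux.H96

namespace Crest.Agent.S0316Aux.A

namespace Block

lemma plu_eq (z : Fin 5 → ℂ) (i j : Fin 5) :
    plu z i j = 2 * ((z i).re * (z j).im - (z i).im * (z j).re) := by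
  simp [plu]; ring

section B1
variable (c1 s1 c2 s2 : ℝ) (z : Fin 5 → ℂ)

lemma b1_0 : rcs 3 4 c2 s2 (rcs 1 2 c1 s1 z) 0 = z 0 := by
  simp [rcs]
lemma b1_1 : rcs 3 4 c2 s2 (rcs 1 2 c1 s1 z) 1 = (c1 : ℂ) * z 1 - (s1 : ℂ) * z 2 := by
  simp [rcs]
lemma b1_2 : rcs 3 4 c2 s2 (rcs 1 2 c1 s1 z) 2 = (s1 : ℂ) * z 1 + (c1 : ℂ) * z 2 := by
  simp [rcs]
lemma b1_3 : rcs 3 4 c2 s2 (rcs 1 2 c1 s1 z) 3 = (c2 : ℂ) * z 3 - (s2 : ℂ) * z 4 := by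
  simp [rcs]
lemma b1_4 : rcs 3 4 c2 s2 (rcs 1 2 c1 s1 z) 4 = (s2 : ℂ) * z 3 + (c2 : ℂ) * z 4 := by
  simp [rcs]

lemma b1_plu12 (h1 : c1 ^ 2 + s1 ^ 2 = 1) :
    plu (rcs 3 4 c2 s2 (rcs 1 2 c1 s1 z)) 1 2 = plu z 1 2 := by
  simp only [plu_eq, b1_1, b1_2, Complex.sub_re, Complex.sub_im, Complex.add_re, Complex.add_im,
    Complex.re_ofReal_mul, Complex.im_ofReal_mul]
  linear_combination (2 * ((z 1).re * (z 2).im - (z 1).im * (z 2).re)) * h1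

lemma b1_plu34 (h2 : c2 ^ 2 + s2 ^ 2 = 1) :
    plu (rcs 3 4 c2 s2 (rcs 1 2 c1 s1 z)) 3 4 = plu z 3 4 := by
  simp only [plu_eq, b1_3, b1_4, Complex.sub_re, Complex.sub_im, Complex.add_re, Complex.add_im,
    Complex.re_ofReal_mul, Complex.im_ofReal_mul]
  linear_combination (2 * ((z 3).re * (z 4).im - (z 3).im * (z 4).re)) * h2

lemma b1_u1 (h1 : c1 ^ 2 + s1 ^ 2 = 1) (h2 : c2 ^ 2 + s2 ^ 2 = 1) :
    u1 (rcs 3 4 c2 s2 (rcs 1 2 c1 s1 z)) = u1 z := by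
  simp only [u1, b1_plu12 c1 s1 c2 s2 z h1, b1_plu34 c1 s1 c2 s2 z h2]

lemma b1_v1 (h1 : c1 ^ 2 + s1 ^ 2 = 1) (h2 : c2 ^ 2 + s2 ^ 2 = 1) :
    v1 (rcs 3 4 c2 s2 (rcs 1 2 c1 s1 z)) = v1 z := by
  simp only [v1, b1_plu12 c1 s1 c2 s2 z h1, b1_plu34 c1 s1 c2 s2 z h2]

lemma b1_u2 : u2 (rcs 3 4 c2 s2 (rcs 1 2 c1 s1 z)) =
    (c1 * c2 - s1 * s2) * u2 z - (s1 * c2 + c1 * s2) * u3 z := by
  simp only [u2, u3, plu_eq, b1_1, b1_2, b1_3, b1_4, Complex.sub_re, Complex.sub_im,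
    Complex.add_re, Complex.add_im, Complex.re_ofReal_mul, Complex.im_ofReal_mul]
  ring

lemma b1_u3 : u3 (rcs 3 4 c2 s2 (rcs 1 2 c1 s1 z)) =
    (s1 * c2 + c1 * s2) * u2 z + (c1 * c2 - s1 * s2) * u3 z := by
  simp only [u2, u3, plu_eq, b1_1, b1_2, b1_3, b1_4, Complex.sub_re, Complex.sub_im,
    Complex.add_re, Complex.add_im, Complex.re_ofReal_mul, Complex.im_ofReal_mul]
  ring

lemma b1_v2 : v2 (rcs 3 4 c2 s2 (rcs 1 2 c1 s1 z)) =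
    (c1 * c2 + s1 * s2) * v2 z - (s2 * c1 - c2 * s1) * v3 z := by
  simp only [v2, v3, plu_eq, b1_1, b1_2, b1_3, b1_4, Complex.sub_re, Complex.sub_im,
    Complex.add_re, Complex.add_im, Complex.re_ofReal_mul, Complex.im_ofReal_mul]
  ring

lemma b1_v3 : v3 (rcs 3 4 c2 s2 (rcs 1 2 c1 s1 z)) =
    (s2 * c1 - c2 * s1) * v2 z + (c1 * c2 + s1 * s2) * v3 z := by
  simp only [v2, v3, plu_eq, b1_1, b1_2, b1_3, b1_4, Complex.sub_re, Complex.sub_im,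
    Complex.add_re, Complex.add_im, Complex.re_ofReal_mul, Complex.im_ofReal_mul]
  ring

end B1

section B2
variable (c1 s1 c2 s2 : ℝ) (z : Fin 5 → ℂ)

lemma b2_0 : rcs 2 3 c2 s2 (rcs 1 4 c1 s1 z) 0 = z 0 := by
  simp [rcs]
lemma b2_1 : rcs 2 3 c2 s2 (rcs 1 4 c1 s1 z) 1 = (c1 : ℂ) * z 1 - (s1 : ℂ) * z 4 := by
  simp [rcs]
lemma b2_4 : rcs 2 3 c2 s2 (rcs 1 4 c1 s1 z) 4 = (s1 : ℂ) * z 1 + (c1 : ℂ) * z 4 := by
  simp [rcs]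
lemma b2_2 : rcs 2 3 c2 s2 (rcs 1 4 c1 s1 z) 2 = (c2 : ℂ) * z 2 - (s2 : ℂ) * z 3 := by
  simp [rcs]
lemma b2_3 : rcs 2 3 c2 s2 (rcs 1 4 c1 s1 z) 3 = (s2 : ℂ) * z 2 + (c2 : ℂ) * z 3 := by
  simp [rcs]

lemma b2_plu14 (h1 : c1 ^ 2 + s1 ^ 2 = 1) :
    plu (rcs 2 3 c2 s2 (rcs 1 4 c1 s1 z)) 1 4 = plu z 1 4 := by
  simp only [plu_eq, b2_1, b2_4, Complex.sub_re, Complex.sub_im, Complex.add_re, Complex.add_im,
    Complex.re_ofReal_mul, Complex.im_ofReal_mul]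
  linear_combination (2 * ((z 1).re * (z 4).im - (z 1).im * (z 4).re)) * h1

lemma b2_plu23 (h2 : c2 ^ 2 + s2 ^ 2 = 1) :
    plu (rcs 2 3 c2 s2 (rcs 1 4 c1 s1 z)) 2 3 = plu z 2 3 := by
  simp only [plu_eq, b2_2, b2_3, Complex.sub_re, Complex.sub_im, Complex.add_re, Complex.add_im,
    Complex.re_ofReal_mul, Complex.im_ofReal_mul]
  linear_combination (2 * ((z 2).re * (z 3).im - (z 2).im * (z 3).re)) * h2

lemma b2_u3 (h1 : c1 ^ 2 + s1 ^ 2 = 1) (h2 : c2 ^ 2 + s2 ^ 2 = 1) :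
    u3 (rcs 2 3 c2 s2 (rcs 1 4 c1 s1 z)) = u3 z := by
  simp only [u3, b2_plu14 c1 s1 c2 s2 z h1, b2_plu23 c1 s1 c2 s2 z h2]

lemma b2_v3 (h1 : c1 ^ 2 + s1 ^ 2 = 1) (h2 : c2 ^ 2 + s2 ^ 2 = 1) :
    v3 (rcs 2 3 c2 s2 (rcs 1 4 c1 s1 z)) = v3 z := by
  simp only [v3, b2_plu14 c1 s1 c2 s2 z h1, b2_plu23 c1 s1 c2 s2 z h2]

lemma b2_u1 : u1 (rcs 2 3 c2 s2 (rcs 1 4 c1 s1 z)) =
    (c1 * c2 - s1 * s2) * u1 z - (s1 * c2 + c1 * s2) * u2 z := by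
  simp only [u1, u2, plu_eq, b2_1, b2_2, b2_3, b2_4, Complex.sub_re, Complex.sub_im,
    Complex.add_re, Complex.add_im, Complex.re_ofReal_mul, Complex.im_ofReal_mul]
  ring

lemma b2_u2 : u2 (rcs 2 3 c2 s2 (rcs 1 4 c1 s1 z)) =
    (s1 * c2 + c1 * s2) * u1 z + (c1 * c2 - s1 * s2) * u2 z := by
  simp only [u1, u2, plu_eq, b2_1, b2_2, b2_3, b2_4, Complex.sub_re, Complex.sub_im,
    Complex.add_re, Complex.add_im, Complex.re_ofReal_mul, Complex.im_ofReal_mul]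
  ring

lemma b2_v1 : v1 (rcs 2 3 c2 s2 (rcs 1 4 c1 s1 z)) =
    (c1 * c2 + s1 * s2) * v1 z - (s2 * c1 - c2 * s1) * v2 z := by
  simp only [v1, v2, plu_eq, b2_1, b2_2, b2_3, b2_4, Complex.sub_re, Complex.sub_im,
    Complex.add_re, Complex.add_im, Complex.re_ofReal_mul, Complex.im_ofReal_mul]
  ring

lemma b2_v2 : v2 (rcs 2 3 c2 s2 (rcs 1 4 c1 s1 z)) =
    (s2 * c1 - c2 * s1) * v1 z + (c1 * c2 + s1 * s2) * v2 z := by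
  simp only [v1, v2, plu_eq, b2_1, b2_2, b2_3, b2_4, Complex.sub_re, Complex.sub_im,
    Complex.add_re, Complex.add_im, Complex.re_ofReal_mul, Complex.im_ofReal_mul]
  ring

end B2

end Block

end Crest.Agent.S0316Aux.A
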